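import Vale.Agent.P076.H285.Dec2
import Vale.Agent.P076.DEC.Abs

/-! # P076 / H285 : the bilinear orthogonality `BIL` for the pieces over a strip, on a weighted box (helper285) -/

open MeasureTheory Complex Set Vale.Agent.P122.C2 Vale.Agent.P122.AN
open scoped ENNReal NNReal FourierTransform Convolution

set_option linter.all false

namespace Vale.Agent.P076.H285

lemma G3_int {g : ℤ → E3 → ℂ} (hg : ∀ j, Integrable (g j)) (e3 : ℕ) (p : ℤ) (e2 : ℕ) (r2 : ℤ) : Integrable (G3 g e3 p e2 r2) :=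
  cv_int (cv_int (gS_int hg _) (gS_int hg _)) (gS_int hg _)

lemma inv_G3 {g : ℤ → E3 → ℂ} (hg : ∀ j, Integrable (g j)) (e3 : ℕ) (p : ℤ) (e2 : ℕ) (r2 : ℤ) (z : E3) :
    𝓕⁻ (G3 g e3 p e2 r2) z = F g e3 p z * F g e2 r2 z ^ 2 := by
  unfold G3
  rw [inv_cv (cv_int (gS_int hg _) (gS_int hg _)) (gS_int hg _), inv_cv (gS_int hg _) (gS_int hg _), inv_gS hg, inv_gS hg]
  unfold F
  ring

lemma card_le {J : Finset ℤ} {k : ℤ} {R : ℝ} (h : ∀ l ∈ J, |(k : ℝ) - l| ≤ R) (hR : 0 ≤ R) : (J.card : ℝ) ≤ 2 * R + 1 := by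
  have hs : J ⊆ Finset.Icc (k - ⌊R⌋) (k + ⌊R⌋) := by
    intro l hl
    have h1 := abs_le.1 (h l hl)
    rw [Finset.mem_Icc]
    constructor
    · have : ((k - l : ℤ) : ℝ) ≤ R := by push_cast; linarith
      have := Int.le_floor.2 this
      omega
    · have : ((l - k : ℤ) : ℝ) ≤ R := by push_cast; linarith
      have := Int.le_floor.2 this
      omega
  have hc := Finset.card_le_card hs
  rw [Int.card_Icc] at hc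
  have hf : 0 ≤ ⌊R⌋ := Int.floor_nonneg.2 hR
  have e : (k + ⌊R⌋ + 1 - (k - ⌊R⌋)).toNat = (2 * ⌊R⌋ + 1).toNat := by congr 1; ring
  rw [e] at hc
  have h2 : ((2 * ⌊R⌋ + 1).toNat : ℤ) = 2 * ⌊R⌋ + 1 := Int.toNat_of_nonneg (by omega)
  have h3 : ((2 * ⌊R⌋ + 1).toNat : ℝ) = 2 * (⌊R⌋ : ℝ) + 1 := by exact_mod_cast h2
  have h4 : (J.card : ℝ) ≤ ((2 * ⌊R⌋ + 1).toNat : ℝ) := by exact_mod_cast hc
  have h5 := Int.floor_le R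
  linarith

theorem bi_ort (M : ℕ) : ∃ C : ℝ, 0 ≤ C ∧ ∀ (C0 : ℝ) (n : ℕ) (φ c κ : ℝ) (b : Fin 2 → ℝ) (g : ℤ → E3 → ℂ), Pd C0 n φ c κ b g →
    ∀ (θ ρ1 ρ2 ρ3 : ℝ) (s : Fin 2 → ℝ) (z0 : E3), 4 ^ n ≤ ρ1 → 4 ^ n ≤ ρ2 → 4 ^ n ≤ ρ3 → (∀ k, |s k| * 4 ^ n ≤ C0 * min ρ1 ρ2) →
    ∀ (e2 e3 : ℕ) (r2 : ℤ) (P : Finset ℤ) (D : ℝ) (m : ℕ), 4 * C0 ≤ D → Sep e3 P e2 r2 D →
      111 * C0 ^ 2 * (4 ^ e2 / (D * 2 ^ e3) + 1) ≤ m →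
      ∫⁻ z, ‖∑ p ∈ P, F g e3 p z‖ₑ ^ 2 * ‖F g e2 r2 z‖ₑ ^ 4 * wg M θ ρ1 ρ2 ρ3 s (z - z0) ≤
        ENNReal.ofReal (C * m) * ∑ p ∈ P, ∫⁻ z, ‖F g e3 p z‖ₑ ^ 2 * ‖F g e2 r2 z‖ₑ ^ 4 * wg M θ ρ1 ρ2 ρ3 s (z - z0) := by
  obtain ⟨C, hC, hO⟩ := Vale.Agent.P122.H84.stORT M
  refine ⟨C, hC, ?_⟩
  intro C0 n φ c κ b g hP θ ρ1 ρ2 ρ3 s z0 h1 h2 h3 hs e2 e3 r2 P D m hD hS hm
  have h4 : (0 : ℝ) < 4 ^ n := by positivity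
  have hC0 := hP.one
  have hDp : 0 < D := by linarith
  have hx : 0 ≤ 4 ^ e2 / (D * 2 ^ e3) := by positivity
  have key := hO ℤ P (fun p => G3 g e3 p e2 r2) θ ρ1 ρ2 ρ3 s m (h4.trans_le h1) (h4.trans_le h2) (h4.trans_le h3)
    (fun p _ => G3_int hP.int e3 p e2 r2) ?_ z0
  · have e1 : ∀ z, ‖∑ p ∈ P, 𝓕⁻ (G3 g e3 p e2 r2) z‖ₑ ^ 2 = ‖∑ p ∈ P, F g e3 p z‖ₑ ^ 2 * ‖F g e2 r2 z‖ₑ ^ 4 := by
      intro z
      simp only [inv_G3 hP.int]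
      rw [← Finset.sum_mul, enorm_mul, enorm_pow]
      ring
    have e2' : ∀ p z, ‖𝓕⁻ (G3 g e3 p e2 r2) z‖ₑ ^ 2 = ‖F g e3 p z‖ₑ ^ 2 * ‖F g e2 r2 z‖ₑ ^ 4 := by
      intro p z
      rw [inv_G3 hP.int, enorm_mul, enorm_pow]
      ring
    simp only [e1, e2'] at key
    exact key
  · intro k hk J hJ hov
    have hb : (J.card : ℝ) ≤ 2 * (55 * C0 ^ 2 * (4 ^ e2 / (D * 2 ^ e3) + 1)) + 1 := by
      refine card_le (k := k) ?_ (by positivity)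
      intro l hl
      obtain ⟨ξ, η, hξ, hη, hd⟩ := hov l hl
      exact ovl hP h1 h2 h3 hs hD hS hk (hJ hl) hξ hη hd
    have : (J.card : ℝ) ≤ m := by
      refine hb.trans (le_trans ?_ hm)
      nlinarith [mul_nonneg (sq_nonneg C0) hx, sq_nonneg (C0 - 1)]
    exact_mod_cast this

/-! ## as a measure -/

/-- the weighted measure -/
noncomputable def wm (M : ℕ) (θ ρ1 ρ2 ρ3 : ℝ) (s : Fin 2 → ℝ) (z0 : E3) : Measure E3 :=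
  volume.withDensity fun z => wg M θ ρ1 ρ2 ρ3 s (z - z0)

lemma wg_meas (M : ℕ) (θ ρ1 ρ2 ρ3 : ℝ) (s : Fin 2 → ℝ) (z0 : E3) : Measurable fun z => wg M θ ρ1 ρ2 ρ3 s (z - z0) := by
  unfold wg gau
  simp only [fw, fn, dv, Matrix.cons_val_zero, Matrix.cons_val_one, PiLp.sub_apply]
  fun_prop

lemma inv_cont {g : E3 → ℂ} (hg : Integrable g) : Continuous (𝓕⁻ g : E3 → ℂ) := by
  have h := VectorFourier.fourierIntegral_continuous Real.continuous_fourierChar (μ := (volume : Measure E3))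
    (L := -innerₗ E3) (by
      have : Continuous fun p : E3 × E3 => -(inner ℝ p.1 p.2 : ℝ) := by fun_prop
      simpa using this) hg
  convert h using 1
  ext z
  rw [Real.fourierInv_eq, VectorFourier.fourierIntegral]
  simp

lemma lint_wm {M : ℕ} {θ ρ1 ρ2 ρ3 : ℝ} {s : Fin 2 → ℝ} {z0 : E3} {u : E3 → ℝ≥0∞} (hu : Measurable u) :
    ∫⁻ z, u z ∂(wm M θ ρ1 ρ2 ρ3 s z0) = ∫⁻ z, u z * wg M θ ρ1 ρ2 ρ3 s (z - z0) := by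
  unfold wm
  rw [lintegral_withDensity_eq_lintegral_mul _ (wg_meas M θ ρ1 ρ2 ρ3 s z0) hu]
  apply lintegral_congr
  intro z
  simp only [Pi.mul_apply]
  rw [mul_comm]

lemma blk_eq (g : ℤ → E3 → ℂ) (p : ℕ) (i : ℤ) (z : E3) : DEC.blk (fun j z => 𝓕⁻ (g j) z) p i z = F g p i z := rfl

lemma sep_of {sg p d q : ℕ} {i i' : ℤ} (hd : d ≤ p) (h : DEC.Sep sg p i q i') : Sep (p - d) (DEC.sub d i) q i' (2 ^ sg) := by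
  have key : ∀ p' ∈ DEC.sub d i, ∀ j ∈ cell (p - d) p', j ∈ DEC.bl p i := by
    intro p' hp' j hj
    rw [DEC.bl_biUnion hd i, Finset.mem_biUnion]
    exact ⟨p', hp', hj⟩
  rcases h with h | h
  · left
    intro p' hp' j hj j' hj'
    have h1 := DEC.mem_bl.1 (key p' hp' j hj)
    have h2 := Finset.mem_Ico.1 hj'
    have : j + 2 ^ sg ≤ j' := by linarith [h1.2, h2.1]
    exact_mod_cast this
  · right
    intro p' hp' j hj j' hj'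
    have h1 := DEC.mem_bl.1 (key p' hp' j hj)
    have h2 := Finset.mem_Ico.1 hj'
    have : j' + 2 ^ sg ≤ j := by linarith [h1.1, h2.2]
    exact_mod_cast this

theorem bil (M : ℕ) (C0 : ℝ) (hC0 : 1 ≤ C0) : ∃ c s0 : ℕ, ∀ (n : ℕ) (φ c1 κ : ℝ) (b : Fin 2 → ℝ) (g : ℤ → E3 → ℂ), Pd C0 n φ c1 κ b g →
    ∀ (θ ρ1 ρ2 ρ3 : ℝ) (s : Fin 2 → ℝ) (z0 : E3), 4 ^ n ≤ ρ1 → 4 ^ n ≤ ρ2 → 4 ^ n ≤ ρ3 → (∀ k, |s k| * 4 ^ n ≤ C0 * min ρ1 ρ2) →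
      DEC.BIL (wm M θ ρ1 ρ2 ρ3 s z0) (fun j z => 𝓕⁻ (g j) z) c s0 := by
  obtain ⟨C, hC, hO⟩ := bi_ort M
  obtain ⟨c, hc⟩ := pow_unbounded_of_one_lt (C * (223 * C0 ^ 2)) (one_lt_two (α := ℝ))
  obtain ⟨s0, hs0⟩ := pow_unbounded_of_one_lt (4 * C0) (one_lt_two (α := ℝ))
  refine ⟨c, s0, ?_⟩
  intro n φ c1 κ b g hP θ ρ1 ρ2 ρ3 s z0 h1 h2 h3 hs p d q sg r i i' hd hsg _ hq hS
  have hD : 4 * C0 ≤ (2 : ℝ) ^ sg := hs0.le.trans (pow_le_pow_right₀ (by norm_num) hsg)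
  have hm : 111 * C0 ^ 2 * (4 ^ q / ((2 : ℝ) ^ sg * 2 ^ (p - d)) + 1) ≤ (⌈111 * C0 ^ 2 * ((2 : ℝ) ^ r + 1)⌉₊ : ℝ) := by
    refine le_trans ?_ (Nat.le_ceil _)
    apply mul_le_mul_of_nonneg_left _ (by positivity)
    apply add_le_add _ le_rfl
    rw [div_le_iff₀ (by positivity), ← pow_add, ← pow_add, show (4 : ℝ) = 2 ^ 2 by norm_num, ← pow_mul]
    exact pow_le_pow_right₀ (by norm_num) (by omega)
  have key := hO C0 n φ c1 κ b g hP θ ρ1 ρ2 ρ3 s z0 h1 h2 h3 hs q (p - d) i' (DEC.sub d i) (2 ^ sg) _ hD (sep_of hd hS) hm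
  have mF : ∀ e r, Measurable (F g e r) := fun e r =>
    Finset.measurable_fun_sum _ fun j _ => (inv_cont (hP.int j)).measurable
  have hb : ENNReal.ofReal (C * (⌈111 * C0 ^ 2 * ((2 : ℝ) ^ r + 1)⌉₊ : ℝ)) ≤ 2 ^ (c + r) := by
    have h2r : (1 : ℝ) ≤ 2 ^ r := one_le_pow₀ (by norm_num)
    have hx : (⌈111 * C0 ^ 2 * ((2 : ℝ) ^ r + 1)⌉₊ : ℝ) ≤ 223 * C0 ^ 2 * 2 ^ r := by
      refine (Nat.ceil_lt_add_one (by positivity)).le.trans ?_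
      nlinarith [mul_nonneg (sq_nonneg C0) (sub_nonneg.2 h2r)]
    have hy : C * (⌈111 * C0 ^ 2 * ((2 : ℝ) ^ r + 1)⌉₊ : ℝ) ≤ 2 ^ (c + r) := by
      calc _ ≤ C * (223 * C0 ^ 2 * 2 ^ r) := mul_le_mul_of_nonneg_left hx hC
        _ = C * (223 * C0 ^ 2) * 2 ^ r := by ring
        _ ≤ 2 ^ c * 2 ^ r := mul_le_mul_of_nonneg_right hc.le (by positivity)
        _ = _ := (pow_add _ _ _).symm
    calc _ ≤ ENNReal.ofReal (2 ^ (c + r)) := ENNReal.ofReal_le_ofReal hy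
      _ = _ := by rw [ENNReal.ofReal_pow (by norm_num)]; norm_num
  unfold DEC.bi
  have e1 : ∀ j, ∫⁻ z, ‖DEC.blk (fun j z => 𝓕⁻ (g j) z) (p - d) j z‖ₑ ^ 2 * ‖DEC.blk (fun j z => 𝓕⁻ (g j) z) q i' z‖ₑ ^ 4
      ∂(wm M θ ρ1 ρ2 ρ3 s z0) = ∫⁻ z, ‖F g (p - d) j z‖ₑ ^ 2 * ‖F g q i' z‖ₑ ^ 4 * wg M θ ρ1 ρ2 ρ3 s (z - z0) := fun j =>
    lint_wm (((mF (p - d) j).enorm.pow_const 2).mul ((mF q i').enorm.pow_const 4))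
  have e2 : ∀ z, F g p i z = ∑ j ∈ DEC.sub d i, F g (p - d) j z := fun z =>
    DEC.blk_sum hd (fun j z => 𝓕⁻ (g j) z) i z
  have e0 : ∫⁻ z, ‖DEC.blk (fun j z => 𝓕⁻ (g j) z) p i z‖ₑ ^ 2 * ‖DEC.blk (fun j z => 𝓕⁻ (g j) z) q i' z‖ₑ ^ 4
      ∂(wm M θ ρ1 ρ2 ρ3 s z0) = ∫⁻ z, ‖∑ j ∈ DEC.sub d i, F g (p - d) j z‖ₑ ^ 2 * ‖F g q i' z‖ₑ ^ 4 *
        wg M θ ρ1 ρ2 ρ3 s (z - z0) := by
    have := lint_wm (M := M) (θ := θ) (ρ1 := ρ1) (ρ2 := ρ2) (ρ3 := ρ3) (s := s) (z0 := z0)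
      (((mF p i).enorm.pow_const 2).mul ((mF q i').enorm.pow_const 4))
    simp only [Pi.mul_apply] at this
    simp only [← e2]
    exact this
  simp only [e1]
  rw [e0]
  exact key.trans (mul_le_mul' hb le_rfl)

end Vale.Agent.P076.H285
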