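import Vale.Agent.P122.H84.Ort

/-! # P076 / H285 : decoupling for a strip of the paraboloid, part 1: the bilinear orthogonality step (helper285)

Pieces `g j`, `j : ℤ`, live over the interval of length `2^(-n)` around `j / 2^n` of a strip of width `2^(-n)` of a quadratic
graph, in its `4^(-n)`-neighbourhood. -/

open MeasureTheory Complex Set Vale.Agent.P122.C2 Vale.Agent.P122.AN
open scoped ENNReal NNReal FourierTransform Convolution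

set_option linter.all false

namespace Vale.Agent.P076.H285

/-- convolution on the frequency side -/
noncomputable def cv (f g : E3 → ℂ) : E3 → ℂ := f ⋆[ContinuousLinearMap.mul ℂ ℂ, volume] g

lemma cv_int {f g : E3 → ℂ} (hf : Integrable f) (hg : Integrable g) : Integrable (cv f g) :=
  hf.integrable_convolution _ hg

lemma inv_cv {f g : E3 → ℂ} (hf : Integrable f) (hg : Integrable g) (x : E3) : 𝓕⁻ (cv f g) x = 𝓕⁻ f x * 𝓕⁻ g x := by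
  rw [Real.fourierInv_eq_fourier_neg, Real.fourierInv_eq_fourier_neg, Real.fourierInv_eq_fourier_neg]
  exact Real.fourier_mul_convolution_eq hf hg (-x)

lemma cv_supp {f g : E3 → ℂ} {ξ : E3} (h : cv f g ξ ≠ 0) : ∃ η, f η ≠ 0 ∧ g (ξ - η) ≠ 0 := by
  by_contra hc
  push Not at hc
  apply h
  unfold cv
  rw [convolution_def]
  have : ∀ t, (ContinuousLinearMap.mul ℂ ℂ (f t)) (g (ξ - t)) = 0 := by
    intro t
    by_cases hf : f t = 0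
    · simp [hf]
    · simp [hc t hf]
  simp only [this, integral_zero]

/-- sum of the pieces of a finite set -/
noncomputable def gS (g : ℤ → E3 → ℂ) (I : Finset ℤ) : E3 → ℂ := fun ξ => ∑ j ∈ I, g j ξ

lemma gS_int {g : ℤ → E3 → ℂ} (hg : ∀ j, Integrable (g j)) (I : Finset ℤ) : Integrable (gS g I) :=
  integrable_finset_sum _ fun j _ => hg j

lemma gS_supp {g : ℤ → E3 → ℂ} {I : Finset ℤ} {ξ : E3} (h : gS g I ξ ≠ 0) : ∃ j ∈ I, g j ξ ≠ 0 := by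
  by_contra hc
  push Not at hc
  exact h (Finset.sum_eq_zero hc)

lemma inv_gS {g : ℤ → E3 → ℂ} (hg : ∀ j, Integrable (g j)) (I : Finset ℤ) (z : E3) :
    𝓕⁻ (gS g I) z = ∑ j ∈ I, 𝓕⁻ (g j) z := by
  simp only [Real.fourierInv_eq]
  unfold gS
  simp_rw [Finset.smul_sum]
  rw [integral_finset_sum]
  intro j _
  have := (Real.fourierIntegral_convergent_iff (μ := volume) (f := g j) (-z)).2 (hg j)
  simpa using this

/-- the cell `r` of length `2 ^ e` -/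
noncomputable def cell (e : ℕ) (r : ℤ) : Finset ℤ := Finset.Ico (2 ^ e * r) (2 ^ e * (r + 1))

/-- the function of a cell -/
noncomputable def F (g : ℤ → E3 → ℂ) (e : ℕ) (r : ℤ) (z : E3) : ℂ := ∑ j ∈ cell e r, 𝓕⁻ (g j) z

/-- pieces over a strip (direction `φ`, offset `c`) of the graph `ξ₂ = b · ξ' + κ |ξ'|²` -/
structure Pd (C0 : ℝ) (n : ℕ) (φ c κ : ℝ) (b : Fin 2 → ℝ) (g : ℤ → E3 → ℂ) : Prop where
  one : 1 ≤ C0
  cb : |c| ≤ C0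
  kb : C0⁻¹ ≤ |κ|
  bb : ∀ k, |b k| ≤ C0
  int : ∀ j, Integrable (g j)
  s : ∀ j ξ, g j ξ ≠ 0 → |fw φ (hz ξ) - j / 2 ^ n| ≤ C0 / 2 ^ n
  sb : ∀ j ξ, g j ξ ≠ 0 → |fw φ (hz ξ)| ≤ C0
  u : ∀ j ξ, g j ξ ≠ 0 → |fn φ (hz ξ) - c| ≤ C0 / 2 ^ n
  near : ∀ j ξ, g j ξ ≠ 0 → |ξ 2 - (b 0 * ξ 0 + b 1 * ξ 1 + κ * (ξ 0 ^ 2 + ξ 1 ^ 2))| ≤ C0 / 4 ^ n


lemma abs_co {θ : ℝ} {v : Fin 2 → ℝ} {t : ℝ} (h1 : |fw θ v| ≤ t) (h2 : |fn θ v| ≤ t) : |v 0| ≤ 2 * t ∧ |v 1| ≤ 2 * t := by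
  have hc := Real.sin_sq_add_cos_sq θ
  have hcb := Real.abs_cos_le_one θ
  have hsb := Real.abs_sin_le_one θ
  have e0 : v 0 = Real.cos θ * fw θ v - Real.sin θ * fn θ v := by
    unfold fw fn; linear_combination (-v 0) * hc
  have e1 : v 1 = Real.sin θ * fw θ v + Real.cos θ * fn θ v := by
    unfold fw fn; linear_combination (-v 1) * hc
  have ht : 0 ≤ t := (abs_nonneg _).trans h1
  have p1 : |Real.cos θ * fw θ v| ≤ t := by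
    rw [abs_mul]; calc _ ≤ 1 * t := mul_le_mul hcb h1 (abs_nonneg _) zero_le_one
      _ = t := one_mul _
  have p2 : |Real.sin θ * fn θ v| ≤ t := by
    rw [abs_mul]; calc _ ≤ 1 * t := mul_le_mul hsb h2 (abs_nonneg _) zero_le_one
      _ = t := one_mul _
  have p3 : |Real.sin θ * fw θ v| ≤ t := by
    rw [abs_mul]; calc _ ≤ 1 * t := mul_le_mul hsb h1 (abs_nonneg _) zero_le_one
      _ = t := one_mul _
  have p4 : |Real.cos θ * fn θ v| ≤ t := by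
    rw [abs_mul]; calc _ ≤ 1 * t := mul_le_mul hcb h2 (abs_nonneg _) zero_le_one
      _ = t := one_mul _
  constructor
  · rw [e0]
    exact (abs_sub _ _).trans (by linarith)
  · rw [e1]
    exact (abs_add_le _ _).trans (by linarith)

lemma abs_fr (θ : ℝ) {v : Fin 2 → ℝ} {t : ℝ} (h1 : |v 0| ≤ t) (h2 : |v 1| ≤ t) : |fw θ v| ≤ 2 * t ∧ |fn θ v| ≤ 2 * t := by
  have hcb := Real.abs_cos_le_one θ
  have hsb := Real.abs_sin_le_one θ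
  have ht : 0 ≤ t := (abs_nonneg _).trans h1
  have p1 : |Real.cos θ * v 0| ≤ t := by
    rw [abs_mul]; calc _ ≤ 1 * t := mul_le_mul hcb h1 (abs_nonneg _) zero_le_one
      _ = t := one_mul _
  have p2 : |Real.sin θ * v 1| ≤ t := by
    rw [abs_mul]; calc _ ≤ 1 * t := mul_le_mul hsb h2 (abs_nonneg _) zero_le_one
      _ = t := one_mul _
  have p3 : |-Real.sin θ * v 0| ≤ t := by
    rw [abs_mul, abs_neg]; calc _ ≤ 1 * t := mul_le_mul hsb h1 (abs_nonneg _) zero_le_one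
      _ = t := one_mul _
  have p4 : |Real.cos θ * v 1| ≤ t := by
    rw [abs_mul]; calc _ ≤ 1 * t := mul_le_mul hcb h2 (abs_nonneg _) zero_le_one
      _ = t := one_mul _
  constructor
  · unfold fw
    exact (abs_add_le _ _).trans (by linarith)
  · unfold fn
    exact (abs_add_le _ _).trans (by linarith)

lemma c0_sq {C0 x : ℝ} (hC : 1 ≤ C0) (hx : 0 ≤ x) : C0 * x ≤ C0 ^ 2 * x := by
  apply mul_le_mul_of_nonneg_right _ hx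
  nlinarith

lemma mul_bd {a s A S : ℝ} (ha : |a| ≤ A) (hs : |s| ≤ S) : |a * s| ≤ A * S := by
  rw [abs_mul]
  exact mul_le_mul ha hs (abs_nonneg _) ((abs_nonneg _).trans ha)

lemma sq_bd {x t : ℝ} (hx : |x| ≤ t) : x ^ 2 ≤ t ^ 2 :=
  sq_le_sq' (by linarith [(abs_le.1 hx).1]) ((abs_le.1 hx).2)

lemma arith0 {C0 δ c u u1 u2 w w1 w2 : ℝ} (hC : 1 ≤ C0) (hc : |c| ≤ C0)
    (hu : |(u + u1 + u2) - (w + w1 + w2)| ≤ 4 * δ ^ 2)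
    (hu0 : |u - c| ≤ C0 * δ) (hu1 : |u1 - c| ≤ C0 * δ) (hu2 : |u2 - c| ≤ C0 * δ)
    (hw0 : |w - c| ≤ C0 * δ) (hw1 : |w1 - c| ≤ C0 * δ) (hw2 : |w2 - c| ≤ C0 * δ) :
    |(u ^ 2 + u1 ^ 2 + u2 ^ 2) - (w ^ 2 + w1 ^ 2 + w2 ^ 2)| ≤ 14 * C0 ^ 2 * δ ^ 2 := by
  have e : (u ^ 2 + u1 ^ 2 + u2 ^ 2) - (w ^ 2 + w1 ^ 2 + w2 ^ 2) = 2 * (c * ((u + u1 + u2) - (w + w1 + w2)))
    + ((u - c) ^ 2 + (u1 - c) ^ 2 + (u2 - c) ^ 2) - ((w - c) ^ 2 + (w1 - c) ^ 2 + (w2 - c) ^ 2) := by ring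
  have b1 := abs_le.1 (mul_bd hc hu)
  have b2 := c0_sq hC (x := 4 * δ ^ 2) (by positivity)
  have := sq_bd hu0; have := sq_bd hu1; have := sq_bd hu2; have := sq_bd hw0; have := sq_bd hw1; have := sq_bd hw2
  rw [e, abs_le]
  constructor <;> linarith [sq_nonneg (u - c), sq_nonneg (u1 - c), sq_nonneg (u2 - c), sq_nonneg (w - c),
      sq_nonneg (w1 - c), sq_nonneg (w2 - c), b1.1, b1.2]

lemma arith1 {C0 δ κ S T : ℝ} (hC : 1 ≤ C0) (hκ : C0⁻¹ ≤ |κ|) (hT : |T| ≤ 14 * C0 ^ 2 * δ ^ 2)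
    (hh : |κ * (S + T)| ≤ 15 * C0 * δ ^ 2) : |S| ≤ 29 * C0 ^ 2 * δ ^ 2 := by
  have hC0 : 0 < C0 := by linarith
  rw [abs_mul] at hh
  have hS0 : 0 ≤ |S + T| := abs_nonneg _
  have h1 : C0⁻¹ * |S + T| ≤ 15 * C0 * δ ^ 2 := (mul_le_mul_of_nonneg_right hκ hS0).trans hh
  have h2 : |S + T| ≤ 15 * C0 ^ 2 * δ ^ 2 := by
    calc |S + T| = C0 * (C0⁻¹ * |S + T|) := by field_simp
      _ ≤ C0 * (15 * C0 * δ ^ 2) := mul_le_mul_of_nonneg_left h1 hC0.le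
      _ = _ := by ring
  have h3 := abs_le.1 h2
  have h4 := abs_le.1 hT
  rw [abs_le]
  constructor <;> linarith [h3.1, h3.2, h4.1, h4.2]

lemma arith2 {C0 δ E D p p1 p2 q q1 q2 : ℝ} (hC : 1 ≤ C0) (hδ : 0 < δ) (hE : 1 ≤ E)
    (hD : 4 * C0 ≤ D) (hz : |p1| ≤ C0)
    (hs : |(p + p1 + p2) - (q + q1 + q2)| ≤ 4 * δ ^ 2)
    (a3 : |(p ^ 2 + p1 ^ 2 + p2 ^ 2) - (q ^ 2 + q1 ^ 2 + q2 ^ 2)| ≤ 29 * C0 ^ 2 * δ ^ 2)
    (h2 : |p2 - p1| ≤ 3 * C0 * E * δ) (h3 : |q1 - p1| ≤ 3 * C0 * E * δ) (h4 : |q2 - p1| ≤ 3 * C0 * E * δ) :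
    |(p - q) * (p + q - 2 * p1)| ≤ 55 * C0 ^ 2 * E ^ 2 * δ ^ 2 := by
  have e : (p - q) * (p + q - 2 * p1) = ((p ^ 2 + p1 ^ 2 + p2 ^ 2) - (q ^ 2 + q1 ^ 2 + q2 ^ 2))
    - 2 * (p1 * ((p + p1 + p2) - (q + q1 + q2))) - (p2 - p1) ^ 2 + (q1 - p1) ^ 2 + (q2 - p1) ^ 2 := by ring
  have b1 := abs_le.1 (mul_bd hz hs)
  have b2 := c0_sq hC (x := 4 * δ ^ 2) (by positivity)
  have b3 := abs_le.1 a3
  have c2 := sq_bd h2
  have c3 := sq_bd h3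
  have c4 := sq_bd h4
  have hE2 : 1 ≤ E ^ 2 := by nlinarith
  have c5 : 37 * C0 ^ 2 * δ ^ 2 ≤ 37 * C0 ^ 2 * E ^ 2 * δ ^ 2 := by
    calc 37 * C0 ^ 2 * δ ^ 2 = 37 * (C0 ^ 2 * δ ^ 2) * 1 := by ring
      _ ≤ 37 * (C0 ^ 2 * δ ^ 2) * E ^ 2 := mul_le_mul_of_nonneg_left hE2 (by positivity)
      _ = _ := by ring
  have c6 : 0 ≤ C0 ^ 2 * E ^ 2 * δ ^ 2 := by positivity
  rw [e, abs_le]
  constructor <;> linarith [sq_nonneg (p2 - p1), sq_nonneg (q1 - p1), sq_nonneg (q2 - p1), b1.1, b1.2, b3.1, b3.2]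

/-- the arithmetic of the bilinear step: `p p1 p2`, `q q1 q2` coordinates along the strip, `u`, `w` across -/
lemma arith {C0 δ E D p p1 p2 q q1 q2 u u1 u2 w w1 w2 c κ : ℝ} (hC : 1 ≤ C0) (hδ : 0 < δ) (hE : 1 ≤ E)
    (hD : 4 * C0 ≤ D) (hκ : C0⁻¹ ≤ |κ|) (hc : |c| ≤ C0) (hz : |p1| ≤ C0)
    (hs : |(p + p1 + p2) - (q + q1 + q2)| ≤ 4 * δ ^ 2) (hu : |(u + u1 + u2) - (w + w1 + w2)| ≤ 4 * δ ^ 2)
    (hu0 : |u - c| ≤ C0 * δ) (hu1 : |u1 - c| ≤ C0 * δ) (hu2 : |u2 - c| ≤ C0 * δ)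
    (hw0 : |w - c| ≤ C0 * δ) (hw1 : |w1 - c| ≤ C0 * δ) (hw2 : |w2 - c| ≤ C0 * δ)
    (hh : |κ * (((p ^ 2 + p1 ^ 2 + p2 ^ 2) - (q ^ 2 + q1 ^ 2 + q2 ^ 2)) + ((u ^ 2 + u1 ^ 2 + u2 ^ 2) - (w ^ 2 + w1 ^ 2 + w2 ^ 2)))|
      ≤ 15 * C0 * δ ^ 2)
    (h2 : |p2 - p1| ≤ 3 * C0 * E * δ) (h3 : |q1 - p1| ≤ 3 * C0 * E * δ) (h4 : |q2 - p1| ≤ 3 * C0 * E * δ)
    (hsep : (D * δ ≤ 2 * (p - p1) ∧ D * δ ≤ 2 * (q - p1)) ∨ (D * δ ≤ 2 * (p1 - p) ∧ D * δ ≤ 2 * (p1 - q))) :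
    |p - q| ≤ 55 * C0 ^ 2 * E ^ 2 * δ / D := by
  have hDp : 0 < D := by linarith
  have a3 := arith1 hC hκ (arith0 hC hc hu hu0 hu1 hu2 hw0 hw1 hw2) hh
  have a5 := arith2 hC hδ hE hD hz hs a3 h2 h3 h4
  have a6 : D * δ ≤ |p + q - 2 * p1| := by
    rcases hsep with ⟨x1, x2⟩ | ⟨x1, x2⟩
    · exact le_trans (by linarith) (le_abs_self _)
    · rw [← abs_neg]
      exact le_trans (by linarith) (le_abs_self _)
  rw [le_div_iff₀ hDp]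
  rw [abs_mul] at a5
  have a7 : |p - q| * (D * δ) ≤ 55 * C0 ^ 2 * E ^ 2 * δ ^ 2 :=
    (mul_le_mul_of_nonneg_left a6 (abs_nonneg _)).trans a5
  have : |p - q| * D * δ ≤ 55 * C0 ^ 2 * E ^ 2 * δ * δ := by
    calc |p - q| * D * δ = |p - q| * (D * δ) := by ring
      _ ≤ _ := a7
      _ = _ := by ring
  exact le_of_mul_le_mul_right this hδ

end Vale.Agent.P076.H285
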