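import Vale.Agent.P076.H285.Dec1

/-! # P076 / H285 : decoupling for a strip of the paraboloid, part 2: bilinear orthogonality on a weighted box (helper285) -/

open MeasureTheory Complex Set Vale.Agent.P122.C2 Vale.Agent.P122.AN
open scoped ENNReal NNReal FourierTransform Convolution

set_option linter.all false

namespace Vale.Agent.P076.H285

lemma trip {g : ℤ → E3 → ℂ} {I I' : Finset ℤ} {ξ : E3} (h : cv (cv (gS g I) (gS g I')) (gS g I') ξ ≠ 0) :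
    ∃ a a1 a2 : E3, ξ = a + a1 + a2 ∧ (∃ j ∈ I, g j a ≠ 0) ∧ (∃ j ∈ I', g j a1 ≠ 0) ∧ (∃ j ∈ I', g j a2 ≠ 0) := by
  obtain ⟨η, h1, h2⟩ := cv_supp h
  obtain ⟨a, h3, h4⟩ := cv_supp h1
  exact ⟨a, η - a, ξ - η, by abel, gS_supp h3, gS_supp h4, gS_supp h2⟩

lemma fw_sub (φ : ℝ) (x y : E3) : fw φ (hz (x - y)) = fw φ (hz x) - fw φ (hz y) := by
  simp only [fw, hz, Matrix.cons_val_zero, Matrix.cons_val_one, PiLp.sub_apply]; ring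

lemma fn_sub (φ : ℝ) (x y : E3) : fn φ (hz (x - y)) = fn φ (hz x) - fn φ (hz y) := by
  simp only [fn, hz, Matrix.cons_val_zero, Matrix.cons_val_one, PiLp.sub_apply]; ring

lemma fw_add (φ : ℝ) (x y : E3) : fw φ (hz (x + y)) = fw φ (hz x) + fw φ (hz y) := by
  simp only [fw, hz, Matrix.cons_val_zero, Matrix.cons_val_one, PiLp.add_apply]; ring

lemma fn_add (φ : ℝ) (x y : E3) : fn φ (hz (x + y)) = fn φ (hz x) + fn φ (hz y) := by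
  simp only [fn, hz, Matrix.cons_val_zero, Matrix.cons_val_one, PiLp.add_apply]; ring

lemma sq_fr (φ : ℝ) (x : E3) : x 0 ^ 2 + x 1 ^ 2 = fw φ (hz x) ^ 2 + fn φ (hz x) ^ 2 := by
  simp only [fw, fn, hz, Matrix.cons_val_zero, Matrix.cons_val_one]
  have hc := Real.sin_sq_add_cos_sq φ
  linear_combination (-(x 0 ^ 2 + x 1 ^ 2)) * hc

/-- the pieces of the cells `p ∈ P` of length `2 ^ e3` are on one side of the cell `r2` of length `2 ^ e2`, at distance `D` -/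
def Sep (e3 : ℕ) (P : Finset ℤ) (e2 : ℕ) (r2 : ℤ) (D : ℝ) : Prop :=
  (∀ p ∈ P, ∀ j ∈ cell e3 p, ∀ j' ∈ cell e2 r2, (j : ℝ) + D ≤ j') ∨ (∀ p ∈ P, ∀ j ∈ cell e3 p, ∀ j' ∈ cell e2 r2, (j' : ℝ) + D ≤ j)

/-- the triple convolution -/
noncomputable def G3 (g : ℤ → E3 → ℂ) (e3 : ℕ) (p : ℤ) (e2 : ℕ) (r2 : ℤ) : E3 → ℂ :=
  cv (cv (gS g (cell e3 p)) (gS g (cell e2 r2))) (gS g (cell e2 r2))

lemma cell_dist {e : ℕ} {r j j' : ℤ} (h : j ∈ cell e r) (h' : j' ∈ cell e r) : |(j : ℝ) - j'| ≤ 2 ^ e := by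
  unfold cell at h h'
  rw [Finset.mem_Ico] at h h'
  have h1 : (2 : ℤ) ^ e * (r + 1) = 2 ^ e * r + 2 ^ e := by ring
  have a : |j - j'| ≤ 2 ^ e := by
    rw [abs_le]; constructor <;> omega
  exact_mod_cast a

lemma cell_par {e : ℕ} {p q j j' : ℤ} (h : j ∈ cell e p) (h' : j' ∈ cell e q) : |(p : ℝ) - q| ≤ |(j : ℝ) - j'| / 2 ^ e + 1 := by
  unfold cell at h h'
  rw [Finset.mem_Ico] at h h'
  have hp : (0 : ℝ) < 2 ^ e := by positivity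
  have a1 : (2 : ℝ) ^ e * p ≤ j := by exact_mod_cast h.1
  have a2 : (j : ℝ) < 2 ^ e * (p + 1) := by exact_mod_cast h.2
  have b1 : (2 : ℝ) ^ e * q ≤ j' := by exact_mod_cast h'.1
  have b2 : (j' : ℝ) < 2 ^ e * (q + 1) := by exact_mod_cast h'.2
  have : |(p : ℝ) - q| * 2 ^ e ≤ |(j : ℝ) - j'| + 2 ^ e := by
    rw [← abs_of_pos hp, ← abs_mul, abs_of_pos hp]
    have := abs_le.1 (le_refl |(j : ℝ) - j'|)
    rw [abs_le]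
    constructor <;> nlinarith
  calc |(p : ℝ) - q| = |(p : ℝ) - q| * 2 ^ e / 2 ^ e := by field_simp
    _ ≤ (|(j : ℝ) - j'| + 2 ^ e) / 2 ^ e := by gcongr
    _ = _ := by field_simp

section ovl

variable {C0 : ℝ} {n : ℕ} {φ c κ : ℝ} {b : Fin 2 → ℝ} {g : ℤ → E3 → ℂ}

lemma near2 (hP : Pd C0 n φ c κ b g) {e : ℕ} {r j j' : ℤ} (h : j ∈ cell e r) (h' : j' ∈ cell e r) {a a' : E3}
    (ha : g j a ≠ 0) (ha' : g j' a' ≠ 0) : |fw φ (hz a) - fw φ (hz a')| ≤ 3 * C0 * 2 ^ e * (1 / 2 ^ n) := by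
  have h1 := abs_le.1 (hP.s j a ha)
  have h2 := abs_le.1 (hP.s j' a' ha')
  have h3 := abs_le.1 (cell_dist h h')
  have hp : (0 : ℝ) < 1 / 2 ^ n := by positivity
  have hC := hP.one
  have he : (1 : ℝ) ≤ 2 ^ e := one_le_pow₀ (by norm_num)
  have e1 : C0 / 2 ^ n = C0 * (1 / 2 ^ n) := by ring
  have e2 : (j : ℝ) / 2 ^ n = j * (1 / 2 ^ n) := by ring
  have e3 : (j' : ℝ) / 2 ^ n = j' * (1 / 2 ^ n) := by ring
  rw [e1, e2] at h1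
  rw [e1, e3] at h2
  set d : ℝ := 1 / 2 ^ n with hd
  have m1 := mul_le_mul_of_nonneg_right h3.1 hp.le
  have m2 := mul_le_mul_of_nonneg_right h3.2 hp.le
  have c1 : C0 * d ≤ C0 * 2 ^ e * d := by
    apply mul_le_mul_of_nonneg_right _ hp.le
    nlinarith
  have c2 : 2 ^ e * d ≤ C0 * 2 ^ e * d := by
    apply mul_le_mul_of_nonneg_right _ hp.le
    nlinarith
  rw [abs_le]
  constructor <;> nlinarith

lemma far2 (hP : Pd C0 n φ c κ b g) {D : ℝ} (hD : 4 * C0 ≤ D) {j j' : ℤ} (h : (j : ℝ) + D ≤ j') {a a' : E3}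
    (ha : g j a ≠ 0) (ha' : g j' a' ≠ 0) : D * (1 / 2 ^ n) ≤ 2 * (fw φ (hz a') - fw φ (hz a)) := by
  have h1 := abs_le.1 (hP.s j a ha)
  have h2 := abs_le.1 (hP.s j' a' ha')
  have hp : (0 : ℝ) < 1 / 2 ^ n := by positivity
  have e1 : C0 / 2 ^ n = C0 * (1 / 2 ^ n) := by ring
  have e2 : (j : ℝ) / 2 ^ n = j * (1 / 2 ^ n) := by ring
  have e3 : (j' : ℝ) / 2 ^ n = j' * (1 / 2 ^ n) := by ring
  rw [e1, e2] at h1
  rw [e1, e3] at h2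
  set d : ℝ := 1 / 2 ^ n with hd
  have m1 := mul_le_mul_of_nonneg_right h hp.le
  have m2 := mul_le_mul_of_nonneg_right hD hp.le
  nlinarith


/-- contribution of one piece to the third coordinate -/
lemma third (hP : Pd C0 n φ c κ b g) {j : ℤ} {a : E3} (ha : g j a ≠ 0) :
    |κ * (fw φ (hz a) ^ 2 + fn φ (hz a) ^ 2) - (a 2 - (b 0 * a 0 + b 1 * a 1))| ≤ C0 * (1 / 2 ^ n) ^ 2 := by
  have h := hP.near j a ha
  rw [sq_fr φ a] at h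
  have e : C0 * (1 / 2 ^ n) ^ 2 = C0 / 4 ^ n := by
    rw [show (4 : ℝ) = 2 ^ 2 by norm_num, ← pow_mul]; ring
  rw [e, ← abs_neg]
  convert h using 2
  ring

lemma arith3 {C0 d K0 K1 K2 L0 L1 L2 A0 A1 A2 B0 B1 B2 X0 X1 X2 Y0 Y1 Y2 u v r t : ℝ} (hC : 1 ≤ C0) (hd : 0 ≤ d)
    (k0 : |K0 - (A0 - B0)| ≤ C0 * d) (k1 : |K1 - (A1 - B1)| ≤ C0 * d) (k2 : |K2 - (A2 - B2)| ≤ C0 * d)
    (l0 : |L0 - (X0 - Y0)| ≤ C0 * d) (l1 : |L1 - (X1 - Y1)| ≤ C0 * d) (l2 : |L2 - (X2 - Y2)| ≤ C0 * d)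
    (hB : (B0 + B1 + B2) - (Y0 + Y1 + Y2) = u + v) (hu : |u| ≤ C0 * (2 * d)) (hv : |v| ≤ C0 * (2 * d))
    (hr : |r| ≤ C0 * (2 * d)) (ht : |t| ≤ C0 * (2 * d)) (hA : |(A0 + A1 + A2) - (X0 + X1 + X2) + r + t| ≤ d) :
    |(K0 + K1 + K2) - (L0 + L1 + L2)| ≤ 15 * C0 * d := by
  have hCd : d ≤ C0 * d := by nlinarith
  have k0 := abs_le.1 k0
  have k1 := abs_le.1 k1
  have k2 := abs_le.1 k2
  have l0 := abs_le.1 l0
  have l1 := abs_le.1 l1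
  have l2 := abs_le.1 l2
  have hu := abs_le.1 hu
  have hv := abs_le.1 hv
  have hr := abs_le.1 hr
  have ht := abs_le.1 ht
  have hA := abs_le.1 hA
  rw [abs_le]
  constructor
  · linarith [k0.1, k1.1, k2.1, l0.2, l1.2, l2.2, hu.1, hu.2, hv.1, hv.2, hr.1, hr.2, ht.1, ht.2, hA.1, hA.2]
  · linarith [k0.2, k1.2, k2.2, l0.1, l1.1, l2.1, hu.1, hu.2, hv.1, hv.2, hr.1, hr.2, ht.1, ht.2, hA.1, hA.2]

lemma back {C0 D p q j k u v : ℝ} {n e2 e3 : ℕ} (i5 : |p - q| ≤ |j - k| / 2 ^ e3 + 1) (hC : 1 ≤ C0) (hD : 0 < D)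
    (i1 : |u - j / 2 ^ n| ≤ C0 / 2 ^ n) (i2 : |v - k / 2 ^ n| ≤ C0 / 2 ^ n)
    (i3 : |u - v| ≤ 55 * C0 ^ 2 * ((2 : ℝ) ^ e2) ^ 2 * (1 / 2 ^ n) / D) :
    |p - q| ≤ 55 * C0 ^ 2 * (4 ^ e2 / (D * 2 ^ e3) + 1) := by
  have hδp : (0 : ℝ) < 1 / 2 ^ n := by positivity
  have i1 := abs_le.1 i1
  have i2 := abs_le.1 i2
  have e1 : C0 / 2 ^ n = C0 * (1 / 2 ^ n) := by ring
  have e2' : j / 2 ^ n = j * (1 / 2 ^ n) := by ring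
  have e3' : k / 2 ^ n = k * (1 / 2 ^ n) := by ring
  rw [e1, e2'] at i1
  rw [e1, e3'] at i2
  set δ : ℝ := 1 / 2 ^ n with hδ
  have i4 : |j - k| ≤ 55 * C0 ^ 2 * 4 ^ e2 / D + 2 * C0 := by
    have : |j - k| * δ ≤ (55 * C0 ^ 2 * 4 ^ e2 / D + 2 * C0) * δ := by
      rw [← abs_of_pos hδp, ← abs_mul, abs_of_pos hδp]
      have ee : 55 * C0 ^ 2 * ((2 : ℝ) ^ e2) ^ 2 * δ / D = 55 * C0 ^ 2 * 4 ^ e2 / D * δ := by
        rw [show (4 : ℝ) = 2 ^ 2 by norm_num, ← pow_mul, ← pow_mul, mul_comm e2 2]; ring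
      rw [ee] at i3
      have i3 := abs_le.1 i3
      rw [abs_le]
      constructor <;> linarith [i1.1, i1.2, i2.1, i2.2, i3.1, i3.2]
    exact le_of_mul_le_mul_right this hδp
  have he3 : (1 : ℝ) ≤ 2 ^ e3 := one_le_pow₀ (by norm_num)
  have he3p : (0 : ℝ) < 2 ^ e3 := by positivity
  have hC2 : 2 * C0 + 1 ≤ 55 * C0 ^ 2 := by nlinarith
  calc |p - q| ≤ |j - k| / 2 ^ e3 + 1 := i5
    _ ≤ (55 * C0 ^ 2 * 4 ^ e2 / D + 2 * C0) / 2 ^ e3 + 1 := by gcongr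
    _ = 55 * C0 ^ 2 * (4 ^ e2 / (D * 2 ^ e3)) + 2 * C0 / 2 ^ e3 + 1 := by field_simp
    _ ≤ 55 * C0 ^ 2 * (4 ^ e2 / (D * 2 ^ e3)) + 2 * C0 + 1 := by
        have : 2 * C0 / 2 ^ e3 ≤ 2 * C0 := div_le_self (by linarith) he3
        linarith
    _ ≤ _ := by rw [mul_add, mul_one]; linarith

lemma ovl (hP : Pd C0 n φ c κ b g) {θ ρ1 ρ2 ρ3 : ℝ} {s : Fin 2 → ℝ} (h1 : 4 ^ n ≤ ρ1) (h2 : 4 ^ n ≤ ρ2) (h3 : 4 ^ n ≤ ρ3)
    (hs : ∀ k, |s k| * 4 ^ n ≤ C0 * min ρ1 ρ2) {e2 e3 : ℕ} {r2 : ℤ} {P : Finset ℤ} {D : ℝ} (hD : 4 * C0 ≤ D)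
    (hS : Sep e3 P e2 r2 D)
    {p q : ℤ} (hp : p ∈ P) (hq : q ∈ P) {ξ η : E3} (hξ : G3 g e3 p e2 r2 ξ ≠ 0) (hη : G3 g e3 q e2 r2 η ≠ 0)
    (hd : Dual 1 θ ρ1 ρ2 ρ3 s (ξ - η)) : |(p : ℝ) - q| ≤ 55 * C0 ^ 2 * (4 ^ e2 / (D * 2 ^ e3) + 1) := by
  obtain ⟨a, a1, a2, hξe, ⟨j, hj, ha⟩, ⟨j1, hj1, ha1⟩, ⟨j2, hj2, ha2⟩⟩ := trip hξ
  obtain ⟨x, x1, x2, hηe, ⟨k, hk, hx⟩, ⟨k1, hk1, hx1⟩, ⟨k2, hk2, hx2⟩⟩ := trip hη
  have hC := hP.one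
  have hC0 : 0 < C0 := by linarith
  have hDp : 0 < D := by linarith
  set δ : ℝ := 1 / 2 ^ n with hδ
  have hδp : 0 < δ := by positivity
  have hδ2 : δ ^ 2 = 1 / 4 ^ n := by
    rw [hδ, show (4 : ℝ) = 2 ^ 2 by norm_num, ← pow_mul]; ring
  have h4 : (0 : ℝ) < 4 ^ n := by positivity
  obtain ⟨d1, d2, d3⟩ := hd
  have f1 : 1 / ρ1 ≤ δ ^ 2 := by rw [hδ2]; exact one_div_le_one_div_of_le h4 h1
  have f2 : 1 / ρ2 ≤ δ ^ 2 := by rw [hδ2]; exact one_div_le_one_div_of_le h4 h2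
  have f3 : 1 / ρ3 ≤ δ ^ 2 := by rw [hδ2]; exact one_div_le_one_div_of_le h4 h3
  have hmin : 0 < min ρ1 ρ2 := lt_min (lt_of_lt_of_le h4 h1) (lt_of_lt_of_le h4 h2)
  have m1 : 1 / ρ1 ≤ 1 / min ρ1 ρ2 := one_div_le_one_div_of_le hmin (min_le_left _ _)
  have m2 : 1 / ρ2 ≤ 1 / min ρ1 ρ2 := one_div_le_one_div_of_le hmin (min_le_right _ _)
  obtain ⟨t0, t1⟩ := abs_co (d1.trans m1) (d2.trans m2)
  obtain ⟨z0, z1⟩ := abs_co (d1.trans f1) (d2.trans f2)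
  have hz0 : hz (ξ - η) 0 = (ξ - η) 0 := rfl
  have hz1 : hz (ξ - η) 1 = (ξ - η) 1 := rfl
  have sk : ∀ (k : Fin 2) (x : ℝ), |x| ≤ 2 * (1 / min ρ1 ρ2) → |s k * x| ≤ C0 * (2 * δ ^ 2) := by
    intro k x hx
    rw [abs_mul, hδ2]
    calc |s k| * |x| ≤ |s k| * (2 * (1 / min ρ1 ρ2)) := mul_le_mul_of_nonneg_left hx (abs_nonneg _)
      _ = (|s k| * 4 ^ n) * (2 * (1 / min ρ1 ρ2) * (1 / 4 ^ n)) := by field_simp
      _ ≤ (C0 * min ρ1 ρ2) * (2 * (1 / min ρ1 ρ2) * (1 / 4 ^ n)) := mul_le_mul_of_nonneg_right (hs k) (by positivity)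
      _ = _ := by field_simp
  rw [hz0] at t0
  rw [hz1] at t1
  obtain ⟨y0, y1⟩ := abs_fr φ z0 z1
  rw [hz0] at z0
  rw [hz1] at z1
  have g3 := d3.trans f3
  -- coordinates along and across the strip
  have hs1 : |(fw φ (hz a) + fw φ (hz a1) + fw φ (hz a2)) - (fw φ (hz x) + fw φ (hz x1) + fw φ (hz x2))| ≤ 4 * δ ^ 2 := by
    have : (fw φ (hz a) + fw φ (hz a1) + fw φ (hz a2)) - (fw φ (hz x) + fw φ (hz x1) + fw φ (hz x2)) = fw φ (hz (ξ - η)) := by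
      rw [fw_sub, hξe, hηe, fw_add, fw_add, fw_add, fw_add]
    rw [this]; linarith
  have hu1 : |(fn φ (hz a) + fn φ (hz a1) + fn φ (hz a2)) - (fn φ (hz x) + fn φ (hz x1) + fn φ (hz x2))| ≤ 4 * δ ^ 2 := by
    have : (fn φ (hz a) + fn φ (hz a1) + fn φ (hz a2)) - (fn φ (hz x) + fn φ (hz x1) + fn φ (hz x2)) = fn φ (hz (ξ - η)) := by
      rw [fn_sub, hξe, hηe, fn_add, fn_add, fn_add, fn_add]
    rw [this]; linarith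
  have cu : ∀ {j : ℤ} {a : E3}, g j a ≠ 0 → |fn φ (hz a) - c| ≤ C0 * δ := by
    intro j a h
    have := hP.u j a h
    rwa [div_eq_mul_one_div] at this
  -- the third coordinate
  have v0 : (ξ - η) 0 = (a 0 + a1 0 + a2 0) - (x 0 + x1 0 + x2 0) := by rw [hξe, hηe]; simp
  have v1 : (ξ - η) 1 = (a 1 + a1 1 + a2 1) - (x 1 + x1 1 + x2 1) := by rw [hξe, hηe]; simp
  have v2 : (ξ - η) 2 = (a 2 + a1 2 + a2 2) - (x 2 + x1 2 + x2 2) := by rw [hξe, hηe]; simp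
  have hh := arith3 hC (sq_nonneg δ) (third hP ha) (third hP ha1) (third hP ha2) (third hP hx) (third hP hx1) (third hP hx2)
    (u := b 0 * (ξ - η) 0) (v := b 1 * (ξ - η) 1) (r := s 0 * (ξ - η) 0) (t := s 1 * (ξ - η) 1)
    (by rw [v0, v1]; ring) (mul_bd (hP.bb 0) z0) (mul_bd (hP.bb 1) z1) (sk 0 _ t0) (sk 1 _ t1)
    (by rw [← v2]; exact g3)
  have hh : |κ * (((fw φ (hz a) ^ 2 + fw φ (hz a1) ^ 2 + fw φ (hz a2) ^ 2) - (fw φ (hz x) ^ 2 + fw φ (hz x1) ^ 2 + fw φ (hz x2) ^ 2))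
      + ((fn φ (hz a) ^ 2 + fn φ (hz a1) ^ 2 + fn φ (hz a2) ^ 2) - (fn φ (hz x) ^ 2 + fn φ (hz x1) ^ 2 + fn φ (hz x2) ^ 2)))|
      ≤ 15 * C0 * δ ^ 2 := by
    convert hh using 2
    ring
  have hsep : (D * δ ≤ 2 * (fw φ (hz a) - fw φ (hz a1)) ∧ D * δ ≤ 2 * (fw φ (hz x) - fw φ (hz a1))) ∨
      (D * δ ≤ 2 * (fw φ (hz a1) - fw φ (hz a)) ∧ D * δ ≤ 2 * (fw φ (hz a1) - fw φ (hz x))) := by
    rcases hS with hS | hS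
    · right
      exact ⟨far2 hP hD (hS p hp j hj j1 hj1) ha ha1, far2 hP hD (hS q hq k hk j1 hj1) hx ha1⟩
    · left
      exact ⟨far2 hP hD (hS p hp j hj j1 hj1) ha1 ha, far2 hP hD (hS q hq k hk j1 hj1) ha1 hx⟩
  have key := arith (E := 2 ^ e2) hC hδp (one_le_pow₀ (by norm_num)) hD hP.kb hP.cb (hP.sb j1 a1 ha1) hs1 hu1 (cu ha) (cu ha1) (cu ha2)
    (cu hx) (cu hx1) (cu hx2) hh (near2 hP hj2 hj1 ha2 ha1) (near2 hP hk1 hj1 hx1 ha1) (near2 hP hk2 hj1 hx2 ha1) hsep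
  exact back (cell_par hj hk) hC hDp (hP.s j a ha) (hP.s k x hx) key

end ovl

end Vale.Agent.P076.H285
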