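import Vale.Agent.P076.H285.Wrap
import Vale.Agent.P076.DEC.Ind

/-! # P076 : planar decoupling `NS.StDEC` (abstract induction by helper888, orthogonality and wrapper by helper285) -/

open MeasureTheory Complex Set Vale.Agent.P122.C2 Vale.Agent.P122.AN
open scoped ENNReal NNReal FourierTransform

set_option linter.all false

namespace Vale.Agent.P076.H285

theorem decAbs : DecAbs := by
  intro η hη c s0
  obtain ⟨a, ha, h⟩ := DEC.dec_abs η hη c s0
  refine ⟨2 ^ a, by positivity, ?_⟩
  intro μ f hf hB p i
  refine (h μ f hf hB p i).trans (mul_le_mul' (le_of_eq ?_) le_rfl)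
  unfold DEC.E
  rw [← Real.rpow_add (by norm_num), ← ENNReal.ofReal_rpow_of_pos (by norm_num)]
  norm_num

/-- planar decoupling -/
theorem stDEC : NS.StDEC := stDEC_of decAbs

end Vale.Agent.P076.H285

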