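import Vale.Agent.P076.H285.Bi
import Vale.Agent.P076.NS.Defs

/-! # P076 / H285 : planar decoupling `NS.StDEC` from the abstract block decoupling (helper285) -/

open MeasureTheory Complex Set Vale.Agent.P122.C2 Vale.Agent.P122.AN
open scoped ENNReal NNReal FourierTransform Convolution

set_option linter.all false

namespace Vale.Agent.P076.H285

open Vale.Agent.P076.DEC (n6 sq blk bl BIL)

/-- block decoupling in an abstract measure space -/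
def DecAbs : Prop := ∀ η : ℝ, 0 < η → ∀ c s0 : ℕ, ∃ A : ℝ, 0 ≤ A ∧ ∀ (μ : Measure E3) (f : ℤ → E3 → ℂ), (∀ m, Measurable (f m)) →
  BIL μ f c s0 → ∀ (p : ℕ) (i : ℤ), n6 μ (blk f p i) ≤ ENNReal.ofReal (A * 2 ^ (η * p)) * sq μ f p i

lemma n6_fin {Ω : Type*} [MeasurableSpace Ω] (μ : Measure Ω) {ι : Type*} (s : Finset ι) (u : ι → Ω → ℂ)
    (hu : ∀ i, Measurable (u i)) (N : ℕ) (hN : s.card ≤ N) :
    n6 μ (fun z => ∑ i ∈ s, u i z) ≤ (N : ℝ≥0∞) ^ 2 * ∑ i ∈ s, n6 μ (u i) := by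
  have h : ∫⁻ z, ‖∑ i ∈ s, u i z‖ₑ ^ 6 ∂μ ≤ (N : ℝ≥0∞) ^ 6 * ∑ i ∈ s, ∫⁻ z, ‖u i z‖ₑ ^ 6 ∂μ := by
    rw [← lintegral_finset_sum _ fun m _ => (hu m).enorm.pow_const 6, ← lintegral_const_mul _
      (Finset.measurable_fun_sum _ fun m _ => (hu m).enorm.pow_const 6)]
    apply lintegral_mono
    intro z
    calc ‖∑ i ∈ s, u i z‖ₑ ^ 6 ≤ (∑ m ∈ s, ‖u m z‖ₑ) ^ 6 := by gcongr; exact enorm_sum_le _ _
      _ ≤ _ := DEC.pt_triv _ _ _ hN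
  calc n6 μ (fun z => ∑ i ∈ s, u i z) ≤ ((N : ℝ≥0∞) ^ 6 * ∑ m ∈ s, ∫⁻ z, ‖u m z‖ₑ ^ 6 ∂μ) ^ (1 / 3 : ℝ) := by
        unfold n6; gcongr
    _ = (N : ℝ≥0∞) ^ 2 * (∑ m ∈ s, ∫⁻ z, ‖u m z‖ₑ ^ 6 ∂μ) ^ (1 / 3 : ℝ) := by
        rw [ENNReal.mul_rpow_of_nonneg _ _ (by norm_num), DEC.third_six]
    _ ≤ (N : ℝ≥0∞) ^ 2 * ∑ m ∈ s, (∫⁻ z, ‖u m z‖ₑ ^ 6 ∂μ) ^ (1 / 3 : ℝ) := by
        gcongr; exact DEC.third_sum _ _
    _ = _ := rfl

lemma inv_sum {ι : Type*} {g : ι → E3 → ℂ} (hg : ∀ j, Integrable (g j)) (I : Finset ι) (z : E3) :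
    𝓕⁻ (fun ξ => ∑ j ∈ I, g j ξ) z = ∑ j ∈ I, 𝓕⁻ (g j) z := by
  simp only [Real.fourierInv_eq]
  simp_rw [Finset.smul_sum]
  rw [integral_finset_sum]
  intro j _
  have := (Real.fourierIntegral_convergent_iff (μ := volume) (f := g j) (-z)).2 (hg j)
  simpa using this

lemma fw_sub' (φ : ℝ) (x y : Fin 2 → ℝ) : fw φ (fun k => x k - y k) = fw φ x - fw φ y := by
  unfold fw; ring

lemma fn_sub' (φ : ℝ) (x y : Fin 2 → ℝ) : fn φ (fun k => x k - y k) = fn φ x - fn φ y := by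
  unfold fn; ring

section wrap

variable {C0 : ℝ} {n : ℕ} {φ r : ℝ} {g : Z2 → E3 → ℂ}

/-- the position of the cap along the strip -/
noncomputable def pos (n : ℕ) (φ : ℝ) (τ : Z2) : ℤ := ⌊(2 : ℝ) ^ n * fw φ (slp n 1 τ)⌋

lemma pos_near (n : ℕ) (φ : ℝ) (τ : Z2) : |fw φ (slp n 1 τ) - pos n φ τ / 2 ^ n| ≤ 1 / 2 ^ n := by
  have hp : (0 : ℝ) < 2 ^ n := by positivity
  have h1 := Int.floor_le ((2 : ℝ) ^ n * fw φ (slp n 1 τ))
  have h2 := Int.lt_floor_add_one ((2 : ℝ) ^ n * fw φ (slp n 1 τ))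
  have e : fw φ (slp n 1 τ) - pos n φ τ / 2 ^ n = ((2 : ℝ) ^ n * fw φ (slp n 1 τ) - pos n φ τ) / 2 ^ n := by
    field_simp
  rw [e, abs_div, abs_of_pos hp]
  apply div_le_div_of_nonneg_right _ hp.le
  unfold pos
  rw [abs_le]
  constructor <;> linarith

lemma slp_bd {τ : Z2} (h : ∀ k, 0 ≤ τ k ∧ τ k < 2 ^ (1 * n)) (k : Fin 2) : |slp n 1 τ k| ≤ 1 := by
  have hp : (0 : ℝ) < 2 ^ (1 * n) := by positivity
  have h0 : (0 : ℝ) ≤ τ k := by exact_mod_cast (h k).1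
  have h1 : (τ k : ℝ) < 2 ^ (1 * n) := by exact_mod_cast (h k).2
  unfold slp
  rw [abs_of_nonneg (by positivity), div_le_one hp]
  exact h1.le

lemma pos_mem {τ : Z2} (h : ∀ k, 0 ≤ τ k ∧ τ k < 2 ^ (1 * n)) :
    pos n φ τ ∈ (Finset.Icc (-2 : ℤ) 2).biUnion (bl n) := by
  have hp : (0 : ℝ) < 2 ^ n := by positivity
  have hpz : (0 : ℤ) < 2 ^ n := by positivity
  have hb := abs_le.1 (abs_fr φ (slp_bd h 0) (slp_bd h 1)).1
  rw [Finset.mem_biUnion]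
  refine ⟨pos n φ τ / 2 ^ n, ?_, ?_⟩
  · have l1 : -2 * 2 ^ n ≤ pos n φ τ := by
      unfold pos
      rw [Int.le_floor]
      push_cast
      nlinarith [hb.1]
    have l2 : pos n φ τ ≤ 2 * 2 ^ n := by
      have : (pos n φ τ : ℝ) ≤ 2 * 2 ^ n := by
        refine (Int.floor_le _).trans ?_
        nlinarith [hb.2]
      exact_mod_cast this
    rw [Finset.mem_Icc]
    constructor
    · exact (Int.le_ediv_iff_mul_le hpz).2 l1
    · have := Int.ediv_le_ediv hpz l2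
      rwa [Int.mul_ediv_cancel _ hpz.ne'] at this
  · rw [DEC.mem_bl]
    constructor
    · exact Int.mul_ediv_self_le hpz.ne'
    · have := Int.lt_ediv_add_one_mul_self (pos n φ τ) hpz
      linarith

/-- multiplicity -/
lemma mult {G : Finset Z2} (hC : 1 ≤ C0) (hs : ∀ τ ∈ G, |fn φ (slp n 1 τ) - r| ≤ C0 / 2 ^ n) (j : ℤ) :
    (G.filter fun τ => pos n φ τ = j).card ≤ (2 * ⌊4 * C0⌋₊ + 1) ^ 2 := by
  have hp : (0 : ℝ) < 2 ^ n := by positivity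
  rcases (G.filter fun τ => pos n φ τ = j).eq_empty_or_nonempty with h0 | ⟨τ0, h0⟩
  · rw [h0]; simp
  have hsub : (G.filter fun τ => pos n φ τ = j) ⊆
      Fintype.piFinset fun k => Finset.Icc (τ0 k - ⌊4 * C0⌋₊) (τ0 k + ⌊4 * C0⌋₊) := by
    intro τ hτ
    rw [Finset.mem_filter] at hτ h0
    have a1 := abs_le.1 (pos_near n φ τ)
    have a0 := abs_le.1 (pos_near n φ τ0)
    rw [hτ.2] at a1
    rw [h0.2] at a0
    have b1 := abs_le.1 (hs τ hτ.1)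
    have b0 := abs_le.1 (hs τ0 h0.1)
    have hle : 1 / (2 : ℝ) ^ n ≤ C0 / 2 ^ n := div_le_div_of_nonneg_right hC hp.le
    have c1 : |fw φ (fun k => slp n 1 τ k - slp n 1 τ0 k)| ≤ 2 * (C0 / 2 ^ n) := by
      rw [fw_sub', abs_le]
      constructor <;> linarith [a1.1, a1.2, a0.1, a0.2]
    have c2 : |fn φ (fun k => slp n 1 τ k - slp n 1 τ0 k)| ≤ 2 * (C0 / 2 ^ n) := by
      rw [fn_sub', abs_le]
      constructor <;> linarith [b1.1, b1.2, b0.1, b0.2]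
    have c3 := abs_co c1 c2
    have key : ∀ k, |slp n 1 τ k - slp n 1 τ0 k| ≤ 2 * (2 * (C0 / 2 ^ n)) → τ k ∈ Finset.Icc (τ0 k - ⌊4 * C0⌋₊) (τ0 k + ⌊4 * C0⌋₊) := by
      intro k hk
      unfold slp at hk
      rw [one_mul, ← sub_div, abs_div, abs_of_pos hp] at hk
      have hk2 : |(τ k : ℝ) - τ0 k| ≤ 4 * C0 := by
        have := mul_le_mul_of_nonneg_right hk hp.le
        calc |(τ k : ℝ) - τ0 k| = |(τ k : ℝ) - τ0 k| / 2 ^ n * 2 ^ n := by field_simp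
          _ ≤ 2 * (2 * (C0 / 2 ^ n)) * 2 ^ n := this
          _ = 4 * C0 := by field_simp; ring
      have hk3 : (((τ k - τ0 k).natAbs : ℕ) : ℝ) ≤ 4 * C0 := by
        rw [Nat.cast_natAbs]; push_cast; exact hk2
      have hk4 : (τ k - τ0 k).natAbs ≤ ⌊4 * C0⌋₊ := Nat.le_floor hk3
      rw [Finset.mem_Icc]
      omega
    rw [Fintype.mem_piFinset]
    intro k
    fin_cases k
    · exact key 0 c3.1
    · exact key 1 c3.2
  refine (Finset.card_le_card hsub).trans ?_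
  rw [Fintype.card_piFinset]
  simp only [Int.card_Icc]
  rw [Fin.prod_univ_two, pow_two]
  apply Nat.mul_le_mul <;> omega

open Classical in
/-- the pieces of the strip -/
noncomputable def hp (n : ℕ) (φ : ℝ) (G : Finset Z2) (g : Z2 → E3 → ℂ) (j : ℤ) (ξ : E3) : ℂ :=
  ∑ τ ∈ G.filter (fun τ => pos n φ τ = j), g τ ξ

lemma pd {G : Finset Z2} (hC : 1 ≤ C0) (hD : NS.Par C0 1 n g) (hs : ∀ τ ∈ G, |fn φ (slp n 1 τ) - r| ≤ C0 / 2 ^ n)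
    (hne : ∃ τ ∈ G, ∃ ξ, g τ ξ ≠ 0) : Pd (4 * C0) n φ r (-1 / 2) 0 (hp n φ G g) := by
  have hp2 : (0 : ℝ) < 2 ^ n := by positivity
  have hle : C0 / (2 : ℝ) ^ n ≤ C0 := div_le_self (by linarith) (one_le_pow₀ (by norm_num))
  have h4 : ∀ x : ℝ, 4 * C0 / 2 ^ n = 4 * (C0 / 2 ^ n) := fun x => by ring
  have h1le : 1 / (2 : ℝ) ^ n ≤ C0 / 2 ^ n := div_le_div_of_nonneg_right hC hp2.le
  have hsl : ∀ τ ξ, g τ ξ ≠ 0 → (|fw φ (hz ξ) - fw φ (slp n 1 τ)| ≤ 2 * (C0 / 2 ^ n) ∧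
      |fn φ (hz ξ) - fn φ (slp n 1 τ)| ≤ 2 * (C0 / 2 ^ n)) := by
    intro τ ξ h
    have h0 := hD.slope τ ξ h
    rw [one_mul] at h0
    rw [← fw_sub', ← fn_sub']
    apply abs_fr
    · have := h0 0
      unfold slp
      rw [one_mul]
      exact this
    · have := h0 1
      unfold slp
      rw [one_mul]
      exact this
  have hex : ∀ j ξ, hp n φ G g j ξ ≠ 0 → ∃ τ ∈ G, pos n φ τ = j ∧ g τ ξ ≠ 0 := by
    intro j ξ h
    by_contra hc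
    push Not at hc
    apply h
    unfold hp
    apply Finset.sum_eq_zero
    intro τ hτ
    rw [Finset.mem_filter] at hτ
    exact hc τ hτ.1 hτ.2
  refine ⟨by linarith, ?_, ?_, ?_, ?_, ?_, ?_, ?_, ?_⟩
  · obtain ⟨τ, hτ, ξ, hξ⟩ := hne
    have h1 := abs_le.1 (hs τ hτ)
    have h2 := abs_le.1 (abs_fr φ (slp_bd (hD.cell τ ξ hξ) 0) (slp_bd (hD.cell τ ξ hξ) 1)).2
    rw [abs_le]
    constructor <;> linarith [h1.1, h1.2, h2.1, h2.2]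
  · rw [show |(-1 / 2 : ℝ)| = 1 / 2 by rw [abs_of_neg (by norm_num)]; norm_num, ← one_div]
    exact one_div_le_one_div_of_le (by norm_num) (by linarith)
  · intro k
    simp only [Pi.zero_apply, abs_zero]
    linarith
  · intro j
    unfold hp
    exact integrable_finset_sum _ fun τ _ => hD.int τ
  · intro j ξ h
    obtain ⟨τ, hτ, hj, hξ⟩ := hex j ξ h
    have h1 := abs_le.1 (hsl τ ξ hξ).1
    have h2 := abs_le.1 (pos_near n φ τ)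
    rw [hj] at h2
    rw [h4 0, abs_le]
    constructor <;> linarith [h1.1, h1.2, h2.1, h2.2]
  · intro j ξ h
    obtain ⟨τ, hτ, hj, hξ⟩ := hex j ξ h
    have h1 := abs_le.1 (hsl τ ξ hξ).1
    have h2 := abs_le.1 (abs_fr φ (slp_bd (hD.cell τ ξ hξ) 0) (slp_bd (hD.cell τ ξ hξ) 1)).1
    rw [abs_le]
    constructor <;> linarith [h1.1, h1.2, h2.1, h2.2]
  · intro j ξ h
    obtain ⟨τ, hτ, hj, hξ⟩ := hex j ξ h
    have h1 := abs_le.1 (hsl τ ξ hξ).2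
    have h2 := abs_le.1 (hs τ hτ)
    rw [h4 0, abs_le]
    constructor <;> linarith [h1.1, h1.2, h2.1, h2.2]
  · intro j ξ h
    obtain ⟨τ, hτ, hj, hξ⟩ := hex j ξ h
    have h1 := hD.near τ ξ hξ
    have e : (2 : ℝ) ^ (2 * 1 * n) = 4 ^ n := by
      rw [mul_one, pow_mul]; norm_num
    rw [e] at h1
    have h2 : C0 / (4 : ℝ) ^ n ≤ 4 * C0 / 4 ^ n := div_le_div_of_nonneg_right (by linarith) (by positivity)
    refine le_trans (le_of_eq ?_) (h1.trans h2)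
    congr 1
    simp only [NS.hP, hz, Matrix.cons_val_zero, Matrix.cons_val_one, Pi.zero_apply]
    ring

lemma lhs_eq {M : ℕ} {θ ρ1 ρ2 ρ3 : ℝ} {s : Fin 2 → ℝ} {z0 : E3} {u : E3 → ℂ} (hu : Measurable u) :
    n6 (wm M θ ρ1 ρ2 ρ3 s z0) u = (∫⁻ z, ‖u z‖ₑ ^ 6 * wg M θ ρ1 ρ2 ρ3 s (z - z0)) ^ (1 / 3 : ℝ) := by
  unfold n6
  rw [lint_wm (hu.enorm.pow_const 6)]

lemma fib {β ι κ : Type*} [AddCommMonoid β] [DecidableEq κ] (G : Finset ι) (U : Finset κ) (p : ι → κ) (F : ι → β)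
    (h : ∀ τ ∈ G, p τ ∉ U → F τ = 0) : ∑ τ ∈ G, F τ = ∑ j ∈ U, ∑ τ ∈ G.filter (fun τ => p τ = j), F τ := by
  simp_rw [Finset.sum_filter]
  rw [Finset.sum_comm]
  apply Finset.sum_congr rfl
  intro τ hτ
  rw [Finset.sum_ite_eq]
  split_ifs with hu
  · rfl
  · exact h τ hτ hu

lemma sum_U {β : Type*} [AddCommMonoid β] (n : ℕ) (F : ℤ → β) :
    ∑ j ∈ (Finset.Icc (-2 : ℤ) 2).biUnion (bl n), F j = ∑ i ∈ Finset.Icc (-2 : ℤ) 2, ∑ j ∈ bl n i, F j := by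
  rw [Finset.sum_biUnion]
  intro a _ b _ hab
  exact DEC.bl_disj hab

theorem stDEC_of (H : DecAbs) : NS.StDEC := by
  intro ε M C0 hε hM hC0
  obtain ⟨c, s0, hbil⟩ := bil M (4 * C0) (by linarith)
  obtain ⟨A, hA0, hA⟩ := H ε hε c s0
  set N : ℕ := (2 * ⌊4 * C0⌋₊ + 1) ^ 2 with hN
  refine ⟨25 * A * (N : ℝ) ^ 2, by positivity, ?_⟩
  intro n g G θ ρ1 ρ2 ρ3 s z0 hD ⟨φ, r, hstr⟩ ⟨h1, h2, h3, hv⟩
  have e4 : (2 : ℝ) ^ (2 * n) = 4 ^ n := by rw [pow_mul]; norm_num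
  rw [e4] at h1 h2 h3
  have hs : ∀ k, |s k| * 4 ^ n ≤ 4 * C0 * min ρ1 ρ2 := by
    intro k
    have := hv (fun _ => 0) (fun k => ⟨le_rfl, zero_le_one⟩) k
    rw [e4, sub_zero] at this
    have hm : 0 ≤ min ρ1 ρ2 := by
      have : (0 : ℝ) < 4 ^ n := by positivity
      exact le_min (by linarith) (by linarith)
    nlinarith
  have mg : ∀ τ, Measurable (fun z => 𝓕⁻ (g τ) z : E3 → ℂ) := fun τ => (inv_cont (hD.int τ)).measurable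
  by_cases hne : ∃ τ ∈ G, ∃ ξ, g τ ξ ≠ 0
  swap
  · push Not at hne
    have h0 : ∀ z, ∑ τ ∈ G, 𝓕⁻ (g τ) z = 0 := by
      intro z
      apply Finset.sum_eq_zero
      intro τ hτ
      rw [Real.fourierInv_eq]
      simp [hne τ hτ]
    simp only [h0, enorm_zero]
    norm_num
  set μ := wm M θ ρ1 ρ2 ρ3 s z0 with hμ
  set h := hp n φ G g with hh
  set f : ℤ → E3 → ℂ := fun j z => 𝓕⁻ (h j) z with hf
  have hpd := pd hC0 hD hstr hne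
  have mf : ∀ j, Measurable (f j) := fun j => (inv_cont (hpd.int j)).measurable
  have hB := hbil n φ r (-1 / 2) 0 h hpd θ ρ1 ρ2 ρ3 s z0 h1 h2 h3 hs
  have hblk := hA μ f mf hB n
  have ef : ∀ j z, f j z = ∑ τ ∈ G.filter (fun τ => pos n φ τ = j), 𝓕⁻ (g τ) z := by
    intro j z
    rw [hf, hh]
    show 𝓕⁻ (hp n φ G g j) z = _
    unfold hp
    rw [inv_sum hD.int]
  -- the active caps
  set U := (Finset.Icc (-2 : ℤ) 2).biUnion (bl n) with hU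
  have hz0 : ∀ τ ∈ G, pos n φ τ ∉ U → ∀ z, 𝓕⁻ (g τ) z = 0 := by
    intro τ hτ hn z
    have : ∀ ξ, g τ ξ = 0 := by
      intro ξ
      by_contra hc
      exact hn (pos_mem (hD.cell τ ξ hc))
    rw [Real.fourierInv_eq]
    simp [this]
  have hsum : ∀ z, ∑ τ ∈ G, 𝓕⁻ (g τ) z = ∑ i ∈ Finset.Icc (-2 : ℤ) 2, blk f n i z := by
    intro z
    rw [fib G U (pos n φ) (fun τ => 𝓕⁻ (g τ) z) (fun τ hτ hn => hz0 τ hτ hn z), hU, sum_U]
    apply Finset.sum_congr rfl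
    intro i _
    unfold blk
    apply Finset.sum_congr rfl
    intro j _
    rw [ef]
  have hn6 : ∑ τ ∈ G, n6 μ (fun z => 𝓕⁻ (g τ) z) =
      ∑ i ∈ Finset.Icc (-2 : ℤ) 2, ∑ j ∈ bl n i, ∑ τ ∈ G.filter (fun τ => pos n φ τ = j), n6 μ (fun z => 𝓕⁻ (g τ) z) := by
    rw [fib G U (pos n φ) (fun τ => n6 μ (fun z => 𝓕⁻ (g τ) z)) ?_, hU, sum_U]
    intro τ hτ hn
    have := hz0 τ hτ hn
    unfold n6
    simp only [this, enorm_zero]
    norm_num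
  have hpiece : ∀ j, n6 μ (f j) ≤ (N : ℝ≥0∞) ^ 2 * ∑ τ ∈ G.filter (fun τ => pos n φ τ = j), n6 μ (fun z => 𝓕⁻ (g τ) z) := by
    intro j
    have e : f j = fun z => ∑ τ ∈ G.filter (fun τ => pos n φ τ = j), 𝓕⁻ (g τ) z := funext (ef j)
    rw [e]
    exact n6_fin μ _ (fun τ z => 𝓕⁻ (g τ) z) mg N (mult hC0 hstr j)
  have hcard : (Finset.Icc (-2 : ℤ) 2).card ≤ 5 := by simp
  have mblk : ∀ i, Measurable (blk f n i) := fun i => DEC.blk_meas mf n i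
  have hmain : n6 μ (fun z => ∑ τ ∈ G, 𝓕⁻ (g τ) z) ≤
      ENNReal.ofReal (25 * A * (N : ℝ) ^ 2 * 2 ^ (ε * n)) * ∑ τ ∈ G, n6 μ (fun z => 𝓕⁻ (g τ) z) := by
    have e : (fun z => ∑ τ ∈ G, 𝓕⁻ (g τ) z) = fun z => ∑ i ∈ Finset.Icc (-2 : ℤ) 2, blk f n i z := funext hsum
    rw [e, hn6]
    have c5 : ENNReal.ofReal (25 * A * (N : ℝ) ^ 2 * 2 ^ (ε * n)) = ((5 : ℕ) : ℝ≥0∞) ^ 2 * (ENNReal.ofReal (A * 2 ^ (ε * n)) * (N : ℝ≥0∞) ^ 2) := by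
      rw [show 25 * A * (N : ℝ) ^ 2 * 2 ^ (ε * n) = (5 : ℝ) ^ 2 * ((A * 2 ^ (ε * n)) * (N : ℝ) ^ 2) by ring,
        ENNReal.ofReal_mul (by norm_num), ENNReal.ofReal_mul (by positivity), ENNReal.ofReal_pow (by norm_num),
        ENNReal.ofReal_pow (by positivity), ENNReal.ofReal_natCast]
      norm_num
    rw [c5]
    calc n6 μ (fun z => ∑ i ∈ Finset.Icc (-2 : ℤ) 2, blk f n i z)
        ≤ ((5 : ℕ) : ℝ≥0∞) ^ 2 * ∑ i ∈ Finset.Icc (-2 : ℤ) 2, n6 μ (blk f n i) := n6_fin μ _ (fun i => blk f n i) mblk 5 hcard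
      _ ≤ ((5 : ℕ) : ℝ≥0∞) ^ 2 * ∑ i ∈ Finset.Icc (-2 : ℤ) 2, ENNReal.ofReal (A * 2 ^ (ε * n)) *
            ∑ j ∈ bl n i, ((N : ℝ≥0∞) ^ 2 * ∑ τ ∈ G.filter (fun τ => pos n φ τ = j), n6 μ (fun z => 𝓕⁻ (g τ) z)) := by
          apply mul_le_mul' le_rfl
          apply Finset.sum_le_sum
          intro i _
          refine (hblk i).trans (mul_le_mul' le_rfl ?_)
          exact Finset.sum_le_sum fun j _ => hpiece j
      _ = _ := by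
          simp only [← Finset.mul_sum]
          ring
  have l1 := lhs_eq (M := M) (θ := θ) (ρ1 := ρ1) (ρ2 := ρ2) (ρ3 := ρ3) (s := s) (z0 := z0)
    (Finset.measurable_fun_sum G fun τ _ => mg τ)
  have l2 : ∀ τ, n6 μ (fun z => 𝓕⁻ (g τ) z) = _ := fun τ => lhs_eq (M := M) (θ := θ) (ρ1 := ρ1) (ρ2 := ρ2) (ρ3 := ρ3)
    (s := s) (z0 := z0) (mg τ)
  rw [hμ] at hmain l2
  simp only [l2] at hmain
  rw [← l1]
  exact hmain

end wrap

end Vale.Agent.P076.H285
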